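import Vale.Agent.P199.K.Assembly.Ultra

/-!
P199 assembly: the division ring, algebraic over its central field.
-/

namespace Vale.Agent.P199.K.Assembly

open MvPolynomial Matrix Filter

variable (P : ∀ t, Pt t)

/-- The division ring as a type. -/
abbrev DR : Type := Dsub P

/-- The central field as a type. -/
abbrev KF : Type := Cf P

noncomputable instance : Field (KF P) := (Cf_isField P).toField

noncomputable instance : Algebra (KF P) (DR P) :=
  (Subring.inclusion (Cf_le P)).toAlgebra' fun c x => Subtype.ext (Cf_comm P c.2 x.1)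

noncomputable instance : Module (KF P) (DR P) := Algebra.toModule

noncomputable instance : MulAction (KF P) (DR P) :=
  DistribMulAction.toMulAction

theorem algebraMap_val (c : KF P) : (algebraMap (KF P) (DR P) c).1 = c.1 := rfl

instance : Nontrivial (DR P) := ⟨⟨1, 0, fun h => one_ne_zero (congrArg Subtype.val h)⟩⟩

instance : NoZeroDivisors (DR P) :=
  ⟨fun {x y} h => (Dsub_domain P x.2 y.2 (congrArg Subtype.val h)).imp Subtype.ext Subtype.ext⟩

instance : IsDomain (DR P) := NoZeroDivisors.to_isDomain _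

/-- The value of a term in the division ring. -/
noncomputable def evD : Term →+* DR P :=
  (ev P).codRestrict (Dsub P) fun τ => le_frac P _ (C0_le_range P) ⟨τ, rfl⟩

/-- The value of a scalar term in the central field. -/
noncomputable def evK : scalars →+* KF P :=
  ((ev P).comp scalars.val.toRingHom).codRestrict (Cf P) fun c =>
    le_frac P _ le_rfl ⟨c.1, c.2, rfl⟩

theorem evD_scalar (c : scalars) : evD P c.1 = algebraMap (KF P) (DR P) (evK P c) := rfl

/-- Every element is a value of a term divided by a scalar. -/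
theorem exists_eq_smul (z : DR P) : ∃ (c : KF P) (τ : Term), z = c • evD P τ := by
  obtain ⟨c, hc, hc0, ⟨τ, hτ⟩⟩ := z.2
  have h0 : (⟨c, le_frac P _ le_rfl hc⟩ : KF P) ≠ 0 := fun e => hc0 (congrArg Subtype.val e)
  refine ⟨(⟨c, le_frac P _ le_rfl hc⟩ : KF P)⁻¹, τ, ?_⟩
  have h1 : (⟨c, le_frac P _ le_rfl hc⟩ : KF P) • z = evD P τ := by
    rw [Algebra.smul_def]
    exact Subtype.ext hτ.symm
  rw [← h1, inv_smul_smul₀ h0]

/-- The symbol of a coefficient, as a scalar. -/
noncomputable def sym (i l : ℕ) : scalars :=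
  ⟨FreeAlgebra.ι ℚ (Sum.inr (i, l) : Sym), Algebra.subset_adjoin ⟨(i, l), rfl⟩⟩

theorem evt_sym (t i l : ℕ) :
    evt P t (sym i l).1 = algebraMap _ (Mt P t) ((P t).e (kap (t + 4) i l)) := by
  show ((evalT (t + 4) (FreeAlgebra.ι ℚ (Sum.inr (i, l) : Sym))).map (P t).e) = _
  simp [evalT, evalWith, Matrix.algebraMap_eq_diagonal, Matrix.diagonal_map]

theorem rootCoeff_map {R S : Type} [CommRing R] [Algebra ℚ R] [CommRing S] [Algebra ℚ S]
    (φ : R →+* S) (m M l : ℕ) (χ : Polynomial R) :
    φ (rootCoeff m M l χ) = rootCoeff m M l (χ.map φ) := by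
  rw [rootCoeff, rootCoeff, ← Polynomial.coeff_map, Polynomial.map_sum]
  congr 1
  refine Finset.sum_congr rfl fun k _ => ?_
  have h : (χ.map φ).reflect M = (χ.reflect M).map φ := by
    ext j
    simp [Polynomial.coeff_reflect]
  rw [← algebraMap_smul R, ← algebraMap_smul S (algebraMap ℚ S _), Polynomial.map_smul,
    Polynomial.map_pow, Polynomial.map_sub, Polynomial.map_one, h]
  congr 1
  simp [RingHom.map_rat_algebraMap]

/-- The relation of a term: its value annihilates the polynomial whose coefficients are symbols. -/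
theorem evt_relation (hR : RootPin) {t i : ℕ} (hi : i ≤ t) (τ : Term)
    (hτ : fterm (t + 4) i = evalT (t + 4) τ) :
    (∑ j ∈ Finset.range (2 ^ (i + 3) + 1),
      evt P t (sym i (2 ^ (i + 3) - j)).1 * evt P t τ ^ j) = 0 ∧
    evt P t (sym i 0).1 = 1 := by
  obtain ⟨q, hq, hqN, hchar, hA⟩ := (P t).root ⟨i, by omega⟩
  simp only at hqN hchar hA
  set N := 2 ^ (i + 3)
  have hk : ∀ l ≤ N, (P t).e (kap (t + 4) i l) = q.coeff (N - l) := by
    intro l hl
    rw [kap, kapOf, ← AlgHom.coe_toRingHom, rootCoeff_map, ← Matrix.charpoly_map]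
    have := hR (P t).F q N (2 ^ (t + 4 - (i + 3))) hq hqN (by positivity) l hl
    rwa [show (fterm (t + 4) i).map ((P t).e : Pol (t + 4) →+* (P t).F) =
      (fterm (t + 4) i).map (P t).e from rfl, hchar]
  have hev : evt P t τ = (fterm (t + 4) i).map (P t).e := by rw [hτ]; rfl
  constructor
  · rw [Polynomial.aeval_eq_sum_range, hqN] at hA
    refine Eq.trans (Finset.sum_congr rfl fun j hj => ?_) hA
    have hj' : j ≤ N := by simpa [Nat.lt_succ_iff] using hj
    rw [evt_sym, hk _ (Nat.sub_le _ _), Nat.sub_sub_self hj', hev, Algebra.smul_def]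
  · rw [evt_sym, hk 0 (Nat.zero_le _), Nat.sub_zero, ← hqN, hq.coeff_natDegree, map_one]

/-- Values of terms are integral over the central field. -/
theorem isIntegral_evD (hR : RootPin) (τ : Term) : IsIntegral (KF P) (evD P τ) := by
  classical
  obtain ⟨i, hi⟩ := exists_index τ
  set N := 2 ^ (i + 3) with hN
  let c : ℕ → KF P := fun j => evK P (sym i (N - j))
  let q : Polynomial (KF P) := ∑ j ∈ Finset.range (N + 1), Polynomial.monomial j (c j)
  have hev : ∀ᶠ t in (hyperfilter ℕ : Filter ℕ), i ≤ t := by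
    refine Filter.Eventually.filter_mono ?_ (eventually_ge_atTop i)
    rw [← Nat.cofinite_eq_atTop]
    exact hyperfilter_le_cofinite
  have h1 : c N = 1 := by
    apply Subtype.ext
    show ev P (sym i (N - N)).1 = 1
    rw [Nat.sub_self, ev_eq, ← map_one (mk P), mk_eq_mk]
    exact hev.mono fun t ht => (evt_relation P hR ht τ (hi _)).2
  refine ⟨q, ?_, ?_⟩
  · simp only [q, Finset.sum_range_succ, h1, ← Polynomial.X_pow_eq_monomial]
    rw [add_comm]
    refine Polynomial.monic_X_pow_add ?_
    refine (Polynomial.degree_sum_le _ _).trans_lt ?_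
    refine (Finset.sup_lt_iff (WithBot.bot_lt_coe N)).2 ?_
    intro j hj
    exact (Polynomial.degree_monomial_le _ _).trans_lt
      (WithBot.coe_lt_coe.2 (Finset.mem_range.1 hj))
  · rw [Polynomial.eval₂_finsetSum]
    simp only [Polynomial.eval₂_monomial]
    apply Subtype.ext
    rw [AddSubmonoidClass.coe_finsetSum, ZeroMemClass.coe_zero]
    show ∑ j ∈ Finset.range (N + 1), ev P (sym i (N - j)).1 * ev P τ ^ j = 0
    simp only [ev_eq, ← map_pow, ← map_mul, ← map_sum, ← map_zero (mk P), mk_eq_mk]
    refine hev.mono fun t ht => ?_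
    simp only [Finset.sum_apply, Pi.mul_apply, Pi.pow_apply, Pi.zero_apply]
    exact (evt_relation P hR ht τ (hi _)).1

theorem isIntegral (hR : RootPin) (z : DR P) : IsIntegral (KF P) z := by
  obtain ⟨c, τ, rfl⟩ := exists_eq_smul P z
  exact (isIntegral_evD P hR τ).smul c

/-- The division ring structure. -/
@[instance_reducible]
noncomputable def divRing (hR : RootPin) : DivisionRing (DR P) :=
  DivisionRing.ofIsUnitOrEqZero fun z =>
    or_iff_not_imp_right.2 fun hz => (isIntegral P hR z).isUnit hz

/-- The generators. -/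
noncomputable def gen (b : Bool) : DR P := evD P (FreeAlgebra.ι ℚ (Sum.inl b : Sym))

theorem evD_mem_closure (τ : Term) :
    evD P τ ∈ Subring.closure (Set.range (algebraMap (KF P) (DR P)) ∪ Set.range (gen P)) := by
  induction τ using FreeAlgebra.induction with
  | grade0 q =>
    exact Subring.subset_closure (.inl ⟨_, (evD_scalar P ⟨_, scalars.algebraMap_mem q⟩).symm⟩)
  | grade1 s =>
    rcases s with b | ⟨j, l⟩
    · exact Subring.subset_closure (.inr ⟨b, rfl⟩)
    · exact Subring.subset_closure (.inl ⟨_, (evD_scalar P (sym j l)).symm⟩)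
  | mul a b ha hb => rw [map_mul]; exact mul_mem ha hb
  | add a b ha hb => rw [map_add]; exact add_mem ha hb

theorem closure_eq_top :
    Subring.closure (Set.range (algebraMap (KF P) (DR P)) ∪ Set.range (gen P)) = ⊤ := by
  refine eq_top_iff.2 fun z _ => ?_
  obtain ⟨c, τ, rfl⟩ := exists_eq_smul P z
  rw [Algebra.smul_def]
  exact mul_mem (Subring.subset_closure (.inl ⟨c, rfl⟩)) (evD_mem_closure P τ)

end Vale.Agent.P199.K.Assembly
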