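import Vale.Agent.P199.K.Assembly.Weyl
import Vale.Agent.P199.K.Pins

/-!
P199 assembly: the standard identity on a small space, the coordinates of a matrix, and the count.
-/

namespace Vale.Agent.P199.K.Assembly

open MvPolynomial Matrix

/-- A set in the span of fewer than `k` vectors satisfies the standard identity in `k` elements. -/
theorem satisfiesStd_of_span {F A : Type} [Field F] [Ring A] [Algebra F A] {n : ℕ} (v : Fin n → A)
    {k : ℕ} (hk : n < k) (T : Set A) (hT : T ⊆ (Submodule.span F (Set.range v) : Set A)) :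
    SatisfiesStd k T := by
  intro w hw
  have h : ¬ LinearIndependent F w := by
    intro hli
    have hw' : ∀ i, w i ∈ Submodule.span F (Set.range v) := fun i => hT (hw i)
    have hli' : LinearIndependent F (fun i => (⟨w i, hw' i⟩ : Submodule.span F (Set.range v))) :=
      LinearIndependent.of_comp (Submodule.span F (Set.range v)).subtype hli
    have : Module.Finite F (Submodule.span F (Set.range v)) :=
      Module.Finite.span_of_finite F (Set.finite_range v)
    have h1 := hli'.fintype_card_le_finrank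
    have h2 := finrank_range_le_card (R := F) v
    rw [Set.finrank] at h2
    simp only [Fintype.card_fin] at h1 h2
    omega
  have := (MultilinearMap.alternatization
    (MultilinearMap.mkPiAlgebraFin F k A)).map_linearDependent w h
  rw [MultilinearMap.alternatization_apply] at this
  simpa [Units.smul_def] using this

variable {p r : ℕ} [hp : Fact p.Prime]

theorem trace_W {d : Gp p r} (hd : d ≠ 0) : (W p r d).trace = 0 := by
  obtain ⟨g, hg⟩ : ∃ g, chi g d ≠ 1 := by
    by_contra h
    exact hd (chi_sep fun g => not_not.1 fun hg => h ⟨g, hg⟩)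
  let u : (Matrix (Ix p r) (Ix p r) ℂ)ˣ :=
    ⟨W p r g, (cocy g (-g))⁻¹ • W p r (-g), W_mul_neg g, mul_eq_one_comm.1 (W_mul_neg g)⟩
  have h : (u.val * W p r d * u⁻¹.val).trace = (W p r d).trace := Matrix.trace_units_conj u _
  rw [show u.val * W p r d = chi g d • (W p r d * u.val) from W_comm g d, Matrix.smul_mul,
    mul_assoc, Units.mul_inv, mul_one, Matrix.trace_smul, smul_eq_mul] at h
  have h2 : (chi g d - 1) * (W p r d).trace = 0 := by rw [sub_mul, one_mul, h, sub_self]
  exact (mul_eq_zero.1 h2).resolve_left (sub_ne_zero.2 hg)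

section Coord

variable (F : Type) [Field F] [Algebra ℂ F]

theorem trace_WA (d : Gp p r) :
    (WA p r F d).trace = if d = 0 then ((p : F) ^ r) else 0 := by
  have h : (WA p r F d).trace = algebraMap ℂ F (W p r d).trace := by
    simp [Matrix.trace, WA]
  split_ifs with hd
  · subst hd
    rw [h, W_zero, Matrix.trace_one, map_natCast]
    simp
  · rw [h, trace_W hd, map_zero]

/-- The coordinates of a matrix in the Weyl basis are algebraic over the field of its entries. -/
theorem coord_mem (S : Subalgebra ℂ F) (c : Gp p r → F)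
    (h : ∀ i j, (∑ a, c a • WA p r F a) i j ∈ S) (a : Gp p r) : c a ∈ S := by
  classical
  set A := ∑ b, c b • WA p r F b
  have h1 : (WA p r F (-a) * A).trace = c a * (algebraMap ℂ F (cocy (-a) a) * (p : F) ^ r) := by
    simp only [A, Finset.mul_sum, Matrix.trace_sum, Matrix.mul_smul, Matrix.trace_smul, WA_mul,
      trace_WA, smul_eq_mul]
    rw [Finset.sum_eq_single a]
    · rw [if_pos (neg_add_cancel a)]
    · intro b _ hb
      rw [if_neg fun e => hb (neg_add_eq_zero.1 e).symm]
      simp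
    · simp
  have h2 : (WA p r F (-a) * A).trace ∈ S := by
    simp only [Matrix.trace, Matrix.diag, Matrix.mul_apply]
    exact S.sum_mem fun i _ => S.sum_mem fun j _ => S.mul_mem (S.algebraMap_mem _) (h j i)
  have h3 : cocy (-a) a * (p : ℂ) ^ r ≠ 0 :=
    mul_ne_zero (cocy_ne_zero _ _) (pow_ne_zero _ (Nat.cast_ne_zero.2 hp.out.ne_zero))
  have h4 := S.mul_mem h2 (S.algebraMap_mem (cocy (-a) a * (p : ℂ) ^ r)⁻¹)
  rw [h1, mul_assoc, ← map_natCast (algebraMap ℂ F), ← map_pow, ← map_mul, ← map_mul,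
    mul_inv_cancel₀ h3, map_one, mul_one] at h4
  exact h4

end Coord

theorem sum_cN_le {r : ℕ} : ∀ K, K + 3 ≤ r →
    4 * (∑ i ∈ Finset.range K, cN 2 r (i + 3)) + 2 ^ (2 * r - K) ≤ 2 ^ (2 * r)
  | 0, _ => by simp
  | K + 1, hK => by
    rw [Finset.sum_range_succ]
    have ih := sum_cN_le K (r := r) (by omega)
    have h1 : cN 2 r (K + 3) ≤ 2 ^ (K + 3) * (2 ^ (r - (K + 3))) ^ 2 :=
      Nat.mul_le_mul_left _ (Nat.sub_le _ _)
    rw [← pow_mul, ← pow_add] at h1
    have h2 : 2 ^ (2 * r - K) = 2 * 2 ^ (2 * r - (K + 1)) := by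
      rw [← pow_succ', show 2 * r - (K + 1) + 1 = 2 * r - K by omega]
    have h3 : 4 * 2 ^ (K + 3 + (r - (K + 3)) * 2) ≤ 2 ^ (2 * r - (K + 1)) := by
      rw [show 4 * 2 ^ (K + 3 + (r - (K + 3)) * 2) = 2 ^ (K + 3 + (r - (K + 3)) * 2 + 2) by
        rw [pow_add _ _ 2]; ring]
      exact Nat.pow_le_pow_right (by norm_num) (by omega)
    omega

/-- The count: a small standard identity and many small degrees exclude each other. -/
theorem count {t d s : ℕ} (hd : 8 * d < 2 ^ (t + 4))
    (h1 : 2 * (2 ^ (t + 4)) ^ 2 ≤ s + ∑ i : Fin (t + 1), cN 2 (t + 4) (i.val + 3))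
    (h2 : 2 * s ≤ 3 * (2 ^ (t + 4)) ^ 2 + 4 * d * 2 ^ (t + 4)) : False := by
  rw [Fin.sum_univ_eq_sum_range (fun i => cN 2 (t + 4) (i + 3))] at h1
  have h3 := sum_cN_le (r := t + 4) (t + 1) (by omega)
  rw [show (2 : ℕ) ^ (2 * (t + 4)) = (2 ^ (t + 4)) ^ 2 by rw [← pow_mul]; ring_nf] at h3
  have h4 : 8 * d * 2 ^ (t + 4) < (2 ^ (t + 4)) ^ 2 := by
    rw [sq]; exact Nat.mul_lt_mul_of_pos_right hd (by positivity)
  linarith [Nat.zero_le (2 ^ (2 * (t + 4) - (t + 1)))]

end Vale.Agent.P199.K.Assembly
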