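import Vale.Agent.P199.K.Assembly.Alg
import Vale.Agent.P199.K.Assembly.Count

/-!
P199 assembly: the division ring is not finite over its centre.
-/

namespace Vale.Agent.P199.K.Assembly

open MvPolynomial Matrix Filter

section Abstract

variable {K D : Type} [Field K] [Ring D] [Algebra K D]

/-- A finite space over a central field containing one and stable under both generators. -/
theorem exists_stable (hint₀ : ∀ z : D, IsIntegral K z)
    (hfin : Module.Finite (Subring.center D) D) (x : Bool → D) :
    ∃ (e : ℕ) (v : Fin e → D) (c₁ : Fin e → K) (c : Bool → Fin e → Fin e → K),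
      1 = ∑ i, c₁ i • v i ∧ ∀ b j, x b * v j = ∑ i, c b j i • v i := by
  classical
  let φ : K →+* Subring.center D :=
    (algebraMap K D).codRestrict _ fun c =>
      Subring.mem_center_iff.2 fun g => (Algebra.commutes c g).symm
  let _ : Algebra K (Subring.center D) := φ.toAlgebra
  let f : Subring.center D →ₐ[K] D :=
    { (Subring.center D).subtype with commutes' := fun _ => rfl }
  have hint : ∀ g : Subring.center D, IsIntegral K g := fun g =>
    (isIntegral_algHom_iff f Subtype.coe_injective).1 (hint₀ _)
  obtain ⟨n, b, hb⟩ := Submodule.fg_iff_exists_fin_generating_family.1 hfin.fg_top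
  have hco : ∀ z : D, ∃ g : Fin n → Subring.center D, ∑ i, g i • b i = z := fun z =>
    (Submodule.mem_span_range_iff_exists_fun _).1 (hb ▸ Submodule.mem_top)
  choose g hg using hco
  let G : Set (Subring.center D) :=
    Set.range (g 1) ∪ Set.range fun q : Bool × Fin n × Fin n => g (x q.1 * b q.2.1) q.2.2
  have hL : (Algebra.adjoin K G).toSubmodule.FG :=
    fg_adjoin_of_finite ((Set.finite_range _).union (Set.finite_range _)) fun y _ => hint y
  set L : Submodule K D := (Algebra.adjoin K G).toSubmodule.map f.toLinearMap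
  set V : Submodule K D := L * Submodule.span K (Set.range b) with hV
  have hVfg : V.FG := (hL.map _).mul (Submodule.fg_span (Set.finite_range b))
  have memL : ∀ {y : Subring.center D}, y ∈ G → f y ∈ L := fun hx =>
    Submodule.mem_map.2 ⟨_, Algebra.subset_adjoin hx, rfl⟩
  have memV : ∀ z : D, (∀ i, g z i ∈ G) → z ∈ V := fun z hz => by
    rw [← hg z]
    refine V.sum_mem fun i _ => ?_
    rw [Subring.smul_def, smul_eq_mul]
    exact Submodule.mul_mem_mul (memL (hz i)) (Submodule.subset_span ⟨i, rfl⟩)
  have absorb : ∀ m ∈ L, ∀ z ∈ V, m * z ∈ V := by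
    intro m hm z hz
    obtain ⟨m₀, hm₀, rfl⟩ := Submodule.mem_map.1 hm
    induction hz using Submodule.mul_induction_on' with
    | mem_mul_mem u hu y hy =>
      obtain ⟨x₀, hx₀, rfl⟩ := Submodule.mem_map.1 hu
      rw [← mul_assoc, show f.toLinearMap m₀ * f.toLinearMap x₀ = f (m₀ * x₀) from
        (map_mul f m₀ x₀).symm]
      exact Submodule.mul_mem_mul (Submodule.mem_map.2 ⟨_, Subalgebra.mul_mem _ hm₀ hx₀, rfl⟩) hy
    | add u _ y _ hx hy => rw [mul_add]; exact V.add_mem hx hy
  have one_mem : (1 : D) ∈ V := memV 1 fun i => .inl ⟨i, rfl⟩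
  have stable : ∀ (c : Bool), ∀ z ∈ V, x c * z ∈ V := by
    intro c z hz
    induction hz using Submodule.mul_induction_on' with
    | mem_mul_mem u hu y hy =>
      have hcomm : x c * u = u * x c := by
        obtain ⟨x₀, -, rfl⟩ := Submodule.mem_map.1 hu
        exact Subring.mem_center_iff.1 x₀.2 _
      rw [← mul_assoc, hcomm, mul_assoc]
      refine absorb u hu _ ?_
      clear hcomm hu u
      induction hy using Submodule.span_induction with
      | mem w hw =>
        obtain ⟨j, rfl⟩ := hw
        exact memV _ fun i => .inr ⟨(c, j, i), rfl⟩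
      | zero => rw [mul_zero]; exact V.zero_mem
      | add u v _ _ hu hv => rw [mul_add]; exact V.add_mem hu hv
      | smul a u _ hu => rw [mul_smul_comm]; exact V.smul_mem a hu
    | add u _ y _ hx hy => rw [mul_add]; exact V.add_mem hx hy
  obtain ⟨e, v, hv⟩ := Submodule.fg_iff_exists_fin_generating_family.1 hVfg
  have hco' : ∀ z ∈ V, ∃ c : Fin e → K, z = ∑ i, c i • v i := fun z hz => by
    obtain ⟨c, hc⟩ := (Submodule.mem_span_range_iff_exists_fun _).1 (hv.symm ▸ hz)
    exact ⟨c, hc.symm⟩
  have hmem : ∀ j, v j ∈ V := fun j => hv ▸ Submodule.subset_span ⟨j, rfl⟩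
  obtain ⟨c₁, hc₁⟩ := hco' 1 one_mem
  choose c hc using fun b j => hco' _ (stable b _ (hmem j))
  exact ⟨e, v, c₁, c, hc₁, hc⟩

end Abstract

variable (P : ∀ t, Pt t)

/-- The first or second matrix at `t`. -/
noncomputable def genM (t : ℕ) (b : Bool) : Mt P t :=
  (cond b (genX 2 (t + 4)) (genY 2 (t + 4))).map (P t).e

theorem evt_gen (t : ℕ) (b : Bool) :
    evt P t (FreeAlgebra.ι ℚ (Sum.inl b : Sym)) = genM P t b := by
  show ((evalT (t + 4) (FreeAlgebra.ι ℚ (Sum.inl b : Sym))).map (P t).e) = _
  simp [evalT, evalWith, genM]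

theorem gen_coord (t : ℕ) (b : Bool) :
    genM P t b = ∑ a, (P t).e (X (cond b (Sum.inl a) (Sum.inr a))) • WA 2 (t + 4) (P t).F a := by
  cases b <;>
  · ext i j
    simp [genM, genX, genY, Matrix.sum_apply, WA]

/-- The values of the coordinates depend algebraically on few parameters. -/
theorem absurd_of_std (hT : TriPin) {t d : ℕ} (hd : 8 * d < 2 ^ (t + 4))
    (h : SatisfiesStd (2 * d) ((Subring.closure {genM P t true, genM P t false} :
      Subring (Mt P t)) : Set (Mt P t))) : False := by
  obtain ⟨s, z, hs, hz⟩ := hT (P t).F (Ix 2 (t + 4)) _ _ d h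
  simp only [Fintype.card_fun, Fintype.card_fin, ZMod.card] at hs
  refine count hd ((P t).deg s z fun v => ?_) hs
  set A := Algebra.adjoin ℂ (Set.range z)
  rcases v with a | a
  · exact coord_mem (P t).F ((Subalgebra.algebraicClosure A (P t).F).restrictScalars ℂ)
      (fun a => (P t).e (X (Sum.inl a)))
      (fun i j => by have := (hz i j).1; rwa [gen_coord P t true] at this) a
  · exact coord_mem (P t).F ((Subalgebra.algebraicClosure A (P t).F).restrictScalars ℂ)
      (fun a => (P t).e (X (Sum.inr a)))
      (fun i j => by have := (hz i j).2; rwa [gen_coord P t false] at this) a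

/-- No finite space over the central field containing one is stable under both generators. -/
theorem not_stable (hT : TriPin) {e : ℕ} (v : Fin e → DR P) (c₁ : Fin e → KF P)
    (c : Bool → Fin e → Fin e → KF P) (h1 : 1 = ∑ i, c₁ i • v i)
    (hgen : ∀ b j, gen P b * v j = ∑ i, c b j i • v i) : False := by
  choose w hw using fun i => mk_surjective P (v i).1
  have hcoord : ∀ k : KF P, ∃ a : ∀ t, (P t).F, k.1 = mk P fun t => algebraMap _ _ (a t) :=
    fun k => exists_scalar_Cf P k.2
  choose a ha using hcoord
  have hval : ∀ k : Fin e → KF P, (∑ i, k i • v i).1 =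
      mk P fun t => ∑ i, a (k i) t • w i t := by
    intro k
    rw [AddSubmonoidClass.coe_finsetSum]
    simp only [Algebra.smul_def, MulMemClass.coe_mul, algebraMap_val, ha, ← hw, ← map_mul,
      ← map_sum]
    congr 1
    funext t
    simp
  have E1 : ∀ᶠ t in (hyperfilter ℕ : Filter ℕ), (1 : Mt P t) = ∑ i, a (c₁ i) t • w i t := by
    have := congrArg Subtype.val h1
    rw [hval, OneMemClass.coe_one, ← map_one (mk P), mk_eq_mk] at this
    exact this
  have E2 : ∀ᶠ t in (hyperfilter ℕ : Filter ℕ), ∀ b j,
      genM P t b * w j t = ∑ i, a (c b j i) t • w i t := by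
    simp only [eventually_all]
    intro b j
    have := congrArg Subtype.val (hgen b j)
    rw [hval, MulMemClass.coe_mul, ← hw, show (gen P b).1 = mk P fun t => genM P t b from
      congrArg (mk P) (funext fun t => evt_gen P t b), ← map_mul, mk_eq_mk] at this
    exact this
  have E3 : ∀ᶠ t in (hyperfilter ℕ : Filter ℕ), 8 * (e + 1) < 2 ^ (t + 4) := by
    refine Filter.Eventually.filter_mono (Nat.cofinite_eq_atTop ▸ hyperfilter_le_cofinite) ?_
    refine (eventually_ge_atTop (8 * (e + 1))).mono fun t ht => ?_
    exact ht.trans_lt (Nat.lt_two_pow_self.trans_le (Nat.pow_le_pow_right (by norm_num) (by omega)))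
  obtain ⟨t, ⟨e1, e2⟩, e3⟩ := ((E1.and E2).and E3).exists
  set S := Submodule.span (P t).F (Set.range fun i => w i t)
  have hsum : ∀ k : Fin e → (P t).F, ∑ i, k i • w i t ∈ S := fun k =>
    S.sum_mem fun i _ => S.smul_mem _ (Submodule.subset_span ⟨i, rfl⟩)
  have hb : ∀ b, ∀ u ∈ S, genM P t b * u ∈ S := by
    intro b u hu
    induction hu using Submodule.span_induction with
    | mem x hx => obtain ⟨j, rfl⟩ := hx; rw [e2 b j]; exact hsum _
    | zero => rw [mul_zero]; exact S.zero_mem
    | add x y _ _ hx hy => rw [mul_add]; exact S.add_mem hx hy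
    | smul k x _ hx => rw [mul_smul_comm]; exact S.smul_mem k hx
  have hcl : ∀ x ∈ Subring.closure {genM P t true, genM P t false}, ∀ u ∈ S, x * u ∈ S := by
    intro x hx
    induction hx using Subring.closure_induction with
    | mem y hy =>
      rcases hy with rfl | rfl
      · exact hb true
      · exact hb false
    | zero => intro u _; rw [zero_mul]; exact S.zero_mem
    | one => intro u hu; rwa [one_mul]
    | add y z _ _ hy hz => intro u hu; rw [add_mul]; exact S.add_mem (hy u hu) (hz u hu)
    | neg y _ hy => intro u hu; rw [neg_mul]; exact S.neg_mem (hy u hu)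
    | mul y z _ _ hy hz => intro u hu; rw [mul_assoc]; exact hy _ (hz u hu)
  refine absurd_of_std P hT e3 (satisfiesStd_of_span (F := (P t).F) (fun i => w i t) (by omega) _ fun x hx => ?_)
  have h1S : (1 : Mt P t) ∈ S := e1 ▸ hsum _
  simpa using hcl x hx 1 h1S

end Vale.Agent.P199.K.Assembly
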