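import Vale.Agent.P199.K.Assembly.Weyl
import Vale.Agent.P199.K.Pins

/-!
P199 assembly: terms, and the recursion which gives the coefficient symbols their values.
-/

namespace Vale.Agent.P199.K.Assembly

open MvPolynomial Matrix

/-- The symbols: the two generators, and the coefficient symbols. -/
abbrev Sym : Type := Bool ⊕ ℕ × ℕ

/-- The terms. -/
abbrev Term : Type := FreeAlgebra ℚ Sym

instance countable_term : Countable Term := by
  have h1 : Countable (FreeMonoid Sym) := (FreeMonoid.toList (α := Sym)).injective.countable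
  have h2 : Countable (MonoidAlgebra ℚ (FreeMonoid Sym)) :=
    Function.Injective.countable (f := MonoidAlgebra.coeff) (fun a b h => MonoidAlgebra.coeff_inj.1 h)
  exact Countable.of_equiv _ (FreeAlgebra.equivMonoidAlgebraFreeMonoid (R := ℚ) (X := Sym)).toEquiv.symm

/-- An enumeration of the terms which repeats every term arbitrarily late. -/
noncomputable def term (i : ℕ) : Term := (exists_surjective_nat Term).choose i.unpair.1

theorem term_late (τ : Term) (b : ℕ) : ∃ i, b ≤ i ∧ term i = τ := by
  obtain ⟨a, ha⟩ := (exists_surjective_nat Term).choose_spec τ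
  exact ⟨Nat.pair a b, Nat.right_le_pair _ _, by rw [term, Nat.unpair_pair, ha]⟩

variable (r : ℕ)

/-- The coordinate ring. -/
abbrev Pol : Type := MvPolynomial (XY 2 r) ℂ

/-- Polynomial matrix functions. -/
abbrev PMat : Type := Matrix (Ix 2 r) (Ix 2 r) (Pol r)

/-- The value of a term when the symbols have given scalar values. -/
noncomputable def evalWith (κ : ℕ → ℕ → Pol r) : Term →ₐ[ℚ] PMat r :=
  FreeAlgebra.lift ℚ (Sum.elim (fun b => cond b (genX 2 r) (genY 2 r))
    fun s => algebraMap (Pol r) (PMat r) (κ s.1 s.2))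

/-- The candidate coefficient of `X ^ (2 ^ (i + 3) - l)` in the root. -/
noncomputable def kapOf (i l : ℕ) (f : PMat r) : Pol r :=
  rootCoeff (2 ^ (r - (i + 3))) (2 ^ (i + 3) * 2 ^ (r - (i + 3))) l f.charpoly

/-- The value of the `i`th term, the symbols of smaller index having their values. -/
noncomputable def fterm : ℕ → PMat r
  | i => evalWith r (fun j l => if _h : j < i then kapOf r j l (fterm j) else 0) (term i)

/-- The value of a symbol. -/
noncomputable def kap (j l : ℕ) : Pol r := kapOf r j l (fterm r j)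

/-- The value of a term. -/
noncomputable def evalT : Term →ₐ[ℚ] PMat r := evalWith r (kap r)

theorem fterm_eq (i : ℕ) :
    fterm r i = evalWith r (fun j l => if j < i then kap r j l else 0) (term i) := by
  rw [fterm]
  simp only [dite_eq_ite]
  rfl

theorem evalWith_late (τ : Term) : ∃ b, ∀ r i, b ≤ i →
    evalWith r (fun j l => if j < i then kap r j l else 0) τ = evalT r τ := by
  induction τ using FreeAlgebra.induction with
  | grade0 q => exact ⟨0, fun r i _ => by rw [AlgHom.commutes, AlgHom.commutes]⟩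
  | grade1 s =>
    rcases s with b | ⟨j, l⟩
    · exact ⟨0, fun r i _ => by simp [evalT, evalWith]⟩
    · exact ⟨j + 1, fun r i hi => by
        simp [evalT, evalWith, show j < i by omega]⟩
  | mul a b ha hb =>
    obtain ⟨n₁, h₁⟩ := ha
    obtain ⟨n₂, h₂⟩ := hb
    exact ⟨max n₁ n₂, fun r i hi => by
      rw [map_mul, map_mul, h₁ r i (le_of_max_le_left hi), h₂ r i (le_of_max_le_right hi)]⟩
  | add a b ha hb =>
    obtain ⟨n₁, h₁⟩ := ha
    obtain ⟨n₂, h₂⟩ := hb
    exact ⟨max n₁ n₂, fun r i hi => by
      rw [map_add, map_add, h₁ r i (le_of_max_le_left hi), h₂ r i (le_of_max_le_right hi)]⟩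

/-- Every term occurs with its true value. -/
theorem exists_index (τ : Term) : ∃ i, ∀ r, fterm r i = evalT r τ := by
  obtain ⟨b, hb⟩ := evalWith_late τ
  obtain ⟨i, hi, ht⟩ := term_late τ b
  exact ⟨i, fun r => by rw [fterm_eq, ht, hb r i hi]⟩

theorem isEquiv_evalWith (κ : ℕ → ℕ → Pol r)
    (hκ : ∀ j l, IsWeightedHomogeneous (xyWt 2 r) (κ j l) 0) (τ : Term) :
    IsEquiv 2 r (evalWith r κ τ) := by
  induction τ using FreeAlgebra.induction with
  | grade0 q =>
    rw [AlgHom.commutes, IsScalarTower.algebraMap_apply ℚ (Pol r) (PMat r)]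
    refine isEquiv_scalar ?_
    rw [IsScalarTower.algebraMap_apply ℚ ℂ (Pol r), MvPolynomial.algebraMap_eq]
    exact isWeightedHomogeneous_C _ _
  | grade1 s =>
    rcases s with b | ⟨j, l⟩
    · simpa [evalWith] using isEquiv_gen (p := 2) (r := r) b
    · simpa [evalWith] using isEquiv_scalar (hκ j l)
  | mul a b ha hb => rw [map_mul]; exact isEquiv_mul ha hb
  | add a b ha hb => rw [map_add]; exact isEquiv_add ha hb

/-- Polynomials of weight zero form a subring. -/
noncomputable def wt0 : Subalgebra ℚ (Pol r) where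
  carrier := {c | IsWeightedHomogeneous (xyWt 2 r) c 0}
  mul_mem' h h' := by simpa using h.mul h'
  add_mem' h h' := h.add h'
  algebraMap_mem' q := by
    rw [IsScalarTower.algebraMap_apply ℚ ℂ (Pol r), MvPolynomial.algebraMap_eq]
    exact isWeightedHomogeneous_C _ _

theorem coeff_pow_mem {A : Type} [CommRing A] [Algebra ℚ A] (S : Subalgebra ℚ A)
    {g : Polynomial A} (h : ∀ j, g.coeff j ∈ S) : ∀ (k j : ℕ), (g ^ k).coeff j ∈ S
  | 0, j => by rw [pow_zero, Polynomial.coeff_one]; split_ifs <;> simp [S.one_mem, S.zero_mem]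
  | k + 1, j => by
    rw [pow_succ, Polynomial.coeff_mul]
    exact S.sum_mem fun x _ => S.mul_mem (coeff_pow_mem S h k x.1) (h x.2)

theorem kapOf_weight {i l : ℕ} {f : PMat r} (hf : IsEquiv 2 r f) :
    IsWeightedHomogeneous (xyWt 2 r) (kapOf r i l f) 0 := by
  show kapOf r i l f ∈ wt0 r
  simp only [kapOf, rootCoeff, Polynomial.finsetSum_coeff, Polynomial.coeff_smul, smul_eq_mul]
  refine sum_mem fun k _ => mul_mem ((wt0 r).algebraMap_mem _) (coeff_pow_mem _ (fun j => ?_) k l)
  rw [Polynomial.coeff_sub, Polynomial.coeff_reflect, Polynomial.coeff_one]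
  refine sub_mem (charpoly_coeff_weight hf _) ?_
  split_ifs <;> simp [(wt0 r).one_mem, (wt0 r).zero_mem]

theorem isEquiv_fterm (i : ℕ) : IsEquiv 2 r (fterm r i) := by
  induction i using Nat.strong_induction_on with
  | _ i ih =>
    rw [fterm_eq]
    refine isEquiv_evalWith r _ (fun j l => ?_) _
    split_ifs with h
    · exact kapOf_weight r (ih j h)
    · exact isWeightedHomogeneous_zero _ _ _

theorem kap_weight (j l : ℕ) : IsWeightedHomogeneous (xyWt 2 r) (kap r j l) 0 :=
  kapOf_weight r (isEquiv_fterm r j)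

theorem isEquiv_evalT (τ : Term) : IsEquiv 2 r (evalT r τ) :=
  isEquiv_evalWith r _ (kap_weight r) τ

/-- The terms without generators. -/
noncomputable def scalars : Subalgebra ℚ Term :=
  Algebra.adjoin ℚ (Set.range fun s : ℕ × ℕ => FreeAlgebra.ι ℚ (Sum.inr s : Sym))

theorem evalT_scalar {c : Term} (hc : c ∈ scalars) :
    ∃ a : Pol r, evalT r c = algebraMap (Pol r) (PMat r) a := by
  induction hc using Algebra.adjoin_induction with
  | mem x hx =>
    obtain ⟨s, rfl⟩ := hx
    exact ⟨kap r s.1 s.2, by simp [evalT, evalWith]⟩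
  | algebraMap q =>
    exact ⟨algebraMap ℚ (Pol r) q, by
      rw [AlgHom.commutes, IsScalarTower.algebraMap_apply ℚ (Pol r) (PMat r)]⟩
  | add x y _ _ hx hy =>
    obtain ⟨a, ha⟩ := hx
    obtain ⟨b, hb⟩ := hy
    exact ⟨a + b, by rw [map_add, map_add, ha, hb]⟩
  | mul x y _ _ hx hy =>
    obtain ⟨a, ha⟩ := hx
    obtain ⟨b, hb⟩ := hy
    exact ⟨a * b, by rw [map_mul, map_mul, ha, hb]⟩

end Vale.Agent.P199.K.Assembly
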