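import Vale.Agent.P199.K.Assembly.Rec
import Vale.Agent.P199.K.Pins

/-!
P199 assembly: the chosen points, their ultraproduct, and the algebra of values of terms in it.
-/

namespace Vale.Agent.P199.K.Assembly

open MvPolynomial Matrix Filter

/-- A point of size `2 ^ (t + 4)`. -/
structure Pt (t : ℕ) : Type 1 where
  F : Type
  [fld : Field F]
  [alg : Algebra ℂ F]
  [closed : IsAlgClosed F]
  e : Pol (t + 4) →ₐ[ℂ] F
  det : ∀ c : Gp 2 (t + 4) → Pol (t + 4),
    (∀ a, IsWeightedHomogeneous (xyWt 2 (t + 4)) (c a) a) →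
    (∑ a, e (c a) • WA 2 (t + 4) F a).det = 0 → ∀ a, e (c a) = 0
  root : ∀ i : Fin (t + 1), HasRoot (2 ^ (i.val + 3)) (2 ^ (t + 4 - (i.val + 3)))
    ((fterm (t + 4) i.val).map e)
  deg : ∀ (s : ℕ) (z : Fin s → F),
    (∀ v, IsAlgebraic (Algebra.adjoin ℂ (Set.range z)) (e (X v))) →
    2 * (2 ^ (t + 4)) ^ 2 ≤ s + ∑ i : Fin (t + 1), cN 2 (t + 4) (i.val + 3)

attribute [instance] Pt.fld Pt.alg Pt.closed

theorem exists_pt (hM : ModelPin) (t : ℕ) : Nonempty (Pt t) := by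
  have : NeZero (t + 4) := ⟨by omega⟩
  obtain ⟨F, _, _, _, e, h1, h2, h3⟩ := hM 2 (t + 4) (t + 1)
    (fun i => fterm (t + 4) i.val) (fun i => i.val + 3)
    (fun i => isEquiv_fterm _ _) (fun i => by omega)
  exact ⟨⟨F, e, h1, h2, h3⟩⟩

variable (P : ∀ t, Pt t)

instance (t : ℕ) : CharZero (P t).F :=
  charZero_of_injective_algebraMap (algebraMap ℂ (P t).F).injective

/-- The matrices at `t`. -/
abbrev Mt (t : ℕ) : Type := Matrix (Ix 2 (t + 4)) (Ix 2 (t + 4)) (P t).F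

/-- Equality for most `t`. -/
def con : RingCon (∀ t, Mt P t) where
  r f g := ∀ᶠ t in (hyperfilter ℕ : Filter ℕ), f t = g t
  iseqv := ⟨fun _ => .of_forall fun _ => rfl, fun h => h.mono fun _ => Eq.symm,
    fun h h' => (h.and h').mono fun _ ht => ht.1.trans ht.2⟩
  mul' h h' := (h.and h').mono fun t ht => by simp only [Pi.mul_apply, ht.1, ht.2]
  add' h h' := (h.and h').mono fun t ht => by simp only [Pi.add_apply, ht.1, ht.2]

/-- The ultraproduct. -/
abbrev Ult : Type := (con P).Quotient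

/-- The class of a family. -/
def mk : (∀ t, Mt P t) →+* Ult P := (con P).mk'

theorem mk_eq_mk {f g : ∀ t, Mt P t} :
    mk P f = mk P g ↔ ∀ᶠ t in (hyperfilter ℕ : Filter ℕ), f t = g t :=
  RingCon.eq _

theorem mk_surjective : Function.Surjective (mk P) := Quotient.mk''_surjective

instance : Nontrivial (Ult P) := by
  refine ⟨1, 0, fun h => ?_⟩
  rw [← map_one (mk P), ← map_zero (mk P), mk_eq_mk] at h
  obtain ⟨t, ht⟩ := h.exists
  exact one_ne_zero (α := Mt P t) ht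

/-- The value of a term at `t`. -/
noncomputable def evt (t : ℕ) : Term →+* Mt P t :=
  ((P t).e.toRingHom.mapMatrix).comp (evalT (t + 4)).toRingHom

/-- The value of a term. -/
noncomputable def ev : Term →+* Ult P := (mk P).comp (RingHom.pi fun t => evt P t)

theorem ev_eq (τ : Term) : ev P τ = mk P fun t => evt P t τ := rfl

theorem evt_zero_or_isUnit (t : ℕ) (τ : Term) : evt P t τ = 0 ∨ IsUnit (evt P t τ) := by
  obtain ⟨c, hc, hf⟩ := isEquiv_evalT (t + 4) τ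
  have h : evt P t τ = ∑ a, (P t).e (c a) • WA 2 (t + 4) (P t).F a := by
    show ((evalT (t + 4) τ).map (P t).e) = _
    rw [hf]
    ext i j
    simp [Matrix.sum_apply, WA]
  by_cases h0 : (evt P t τ).det = 0
  · left
    rw [h] at h0 ⊢
    exact Finset.sum_eq_zero fun a _ => by rw [(P t).det c hc h0 a, zero_smul]
  · exact .inr ((Matrix.isUnit_iff_isUnit_det _).2 (isUnit_iff_ne_zero.2 h0))

/-- Values of terms have no zero divisors. -/
theorem ev_mul_eq_zero {τ τ' : Term} (h : ev P τ * ev P τ' = 0) :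
    ev P τ = 0 ∨ ev P τ' = 0 := by
  simp only [ev_eq, ← map_mul, ← map_zero (mk P), mk_eq_mk, Pi.mul_apply, Pi.zero_apply] at h ⊢
  refine Ultrafilter.eventually_or.1 (h.mono fun t ht => ?_)
  rcases evt_zero_or_isUnit P t τ with h1 | h1
  · exact .inl h1
  · exact .inr (h1.mul_right_eq_zero.1 (by rwa [map_mul] at ht))

/-- The values of the scalar terms. -/
noncomputable def C0 : Subring (Ult P) := scalars.toSubring.map (ev P)

theorem exists_scalar {z : Ult P} (hz : z ∈ C0 P) :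
    ∃ a : ∀ t, (P t).F, z = mk P fun t => algebraMap _ _ (a t) := by
  obtain ⟨c, hc, rfl⟩ := hz
  choose a ha using fun t => evalT_scalar (t + 4) (Subalgebra.mem_toSubring.1 hc)
  refine ⟨fun t => (P t).e (a t), ?_⟩
  rw [ev_eq]
  congr 1
  funext t
  show ((evalT (t + 4) c).map (P t).e) = _
  rw [ha t]
  simp [Matrix.algebraMap_eq_diagonal, Matrix.diagonal_map]

theorem C0_comm {c : Ult P} (hc : c ∈ C0 P) (z : Ult P) : c * z = z * c := by
  obtain ⟨a, rfl⟩ := exists_scalar P hc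
  obtain ⟨f, rfl⟩ := mk_surjective P z
  rw [← map_mul, ← map_mul]
  congr 1
  funext t
  exact Algebra.commutes _ _

theorem C0_inv {c : Ult P} (hc : c ∈ C0 P) (h0 : c ≠ 0) :
    ∃ a : ∀ t, (P t).F, c * mk P (fun t => algebraMap _ _ (a t)) = 1 := by
  obtain ⟨a, rfl⟩ := exists_scalar P hc
  refine ⟨fun t => (a t)⁻¹, ?_⟩
  rw [← map_mul, ← map_one (mk P), mk_eq_mk]
  rw [← map_zero (mk P), Ne, mk_eq_mk, ← Ultrafilter.eventually_not] at h0
  refine h0.mono fun t ht => ?_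
  have : a t ≠ 0 := fun e => ht (by simp [e])
  simp [← map_mul, this]

theorem C0_cancel {c z : Ult P} (hc : c ∈ C0 P) (h0 : c ≠ 0) (h : c * z = 0) : z = 0 := by
  obtain ⟨a, ha⟩ := C0_inv P hc h0
  set w := mk P fun t => algebraMap _ (Mt P t) (a t)
  have hw : w * c = 1 := by rw [← C0_comm P hc w, ha]
  rw [← one_mul z, ← hw, mul_assoc, h, mul_zero]

theorem C0_ne {c d : Ult P} (hc : c ∈ C0 P) (hd0 : d ≠ 0) (hc0 : c ≠ 0) : c * d ≠ 0 :=
  fun h => hd0 (C0_cancel P hc hc0 h)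

/-- The fractions with numerator in a subring containing the scalars. -/
noncomputable def frac (B : Subring (Ult P)) (hB : C0 P ≤ B) : Subring (Ult P) where
  carrier := {z | ∃ c ∈ C0 P, c ≠ 0 ∧ c * z ∈ B}
  mul_mem' := by
    rintro x y ⟨c, hc, hc0, hcx⟩ ⟨d, hd, hd0, hdy⟩
    refine ⟨c * d, mul_mem hc hd, C0_ne P hc hd0 hc0, ?_⟩
    rw [show c * d * (x * y) = c * x * (d * y) by
      rw [mul_assoc, ← mul_assoc d x, C0_comm P hd x, mul_assoc x d y, ← mul_assoc]]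
    exact mul_mem hcx hdy
  one_mem' := ⟨1, one_mem _, one_ne_zero, by simp [one_mem B]⟩
  add_mem' := by
    rintro x y ⟨c, hc, hc0, hcx⟩ ⟨d, hd, hd0, hdy⟩
    refine ⟨c * d, mul_mem hc hd, C0_ne P hc hd0 hc0, ?_⟩
    rw [mul_add, mul_assoc c d y]
    refine add_mem ?_ (mul_mem (hB hc) hdy)
    rw [C0_comm P hc d, mul_assoc]
    exact mul_mem (hB hd) hcx
  zero_mem' := ⟨1, one_mem _, one_ne_zero, by simp [zero_mem B]⟩
  neg_mem' := by
    rintro x ⟨c, hc, hc0, hcx⟩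
    exact ⟨c, hc, hc0, Eq.mpr (congrArg (· ∈ B) (mul_neg c x)) (neg_mem hcx)⟩

theorem C0_le_range : C0 P ≤ (ev P).range := by
  rintro z ⟨c, _, rfl⟩
  exact ⟨c, rfl⟩

/-- The central field. -/
noncomputable def Cf : Subring (Ult P) := frac P (C0 P) le_rfl

/-- The division ring. -/
noncomputable def Dsub : Subring (Ult P) := frac P (ev P).range (C0_le_range P)

theorem le_frac (B : Subring (Ult P)) (hB : C0 P ≤ B) : B ≤ frac P B hB :=
  fun z hz => ⟨1, one_mem _, one_ne_zero, by rwa [one_mul]⟩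

theorem Cf_le : Cf P ≤ Dsub P := by
  rintro z ⟨c, hc, hc0, hcz⟩
  exact ⟨c, hc, hc0, C0_le_range P hcz⟩

theorem exists_scalar_Cf {z : Ult P} (hz : z ∈ Cf P) :
    ∃ a : ∀ t, (P t).F, z = mk P fun t => algebraMap _ _ (a t) := by
  obtain ⟨c, hc, hc0, hcz⟩ := hz
  obtain ⟨a, ha⟩ := C0_inv P hc hc0
  obtain ⟨b, hb⟩ := exists_scalar P hcz
  refine ⟨fun t => a t * b t, ?_⟩
  set w := mk P fun t => algebraMap _ (Mt P t) (a t)
  have hw : w * c = 1 := by rw [← C0_comm P hc w, ha]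
  rw [← one_mul z, ← hw, mul_assoc, hb, ← map_mul]
  congr 1
  funext t
  exact (map_mul _ _ _).symm

theorem Cf_comm {c : Ult P} (hc : c ∈ Cf P) (z : Ult P) : c * z = z * c := by
  obtain ⟨a, rfl⟩ := exists_scalar_Cf P hc
  obtain ⟨f, rfl⟩ := mk_surjective P z
  rw [← map_mul, ← map_mul]
  congr 1
  funext t
  exact Algebra.commutes _ _

noncomputable instance : CommRing (Cf P) :=
  { (inferInstance : Ring (Cf P)) with
    mul_comm := fun x y => Subtype.ext (Cf_comm P x.2 y.1) }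

theorem Cf_isField : IsField (Cf P) := by
  refine ⟨⟨0, 1, fun h => zero_ne_one (congrArg Subtype.val h)⟩, mul_comm, fun {z} hz => ?_⟩
  obtain ⟨c, hc, hc0, hcz⟩ := z.2
  have hd0 : c * z.1 ≠ 0 := C0_ne P hc (fun e => hz (Subtype.ext e)) hc0
  obtain ⟨a, ha⟩ := C0_inv P hcz hd0
  refine ⟨⟨c * mk P fun t => algebraMap _ _ (a t), c * z.1, hcz, hd0, ?_⟩, Subtype.ext ?_⟩
  · rw [← mul_assoc, C0_comm P hcz c, mul_assoc, ha, mul_one]
    exact hc
  · show z.1 * (c * _) = 1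
    rw [← mul_assoc, ← C0_comm P hc, ha]

theorem Dsub_domain {x y : Ult P} (hx : x ∈ Dsub P) (hy : y ∈ Dsub P) (h : x * y = 0) :
    x = 0 ∨ y = 0 := by
  obtain ⟨c, hc, hc0, ⟨τ, hτ⟩⟩ := hx
  obtain ⟨d, hd, hd0, ⟨τ', hτ'⟩⟩ := hy
  have h1 : ev P τ * ev P τ' = 0 := by
    rw [hτ, hτ', mul_assoc c x, ← mul_assoc x d, ← C0_comm P hd x, mul_assoc d x, h]
    simp
  rcases ev_mul_eq_zero P h1 with h2 | h2
  · exact .inl (C0_cancel P hc hc0 (hτ.symm.trans h2))
  · exact .inr (C0_cancel P hd hd0 (hτ'.symm.trans h2))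

end Vale.Agent.P199.K.Assembly
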