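import Vale.Agent.P199.K.Defs

/-!
P199 assembly: the Weyl matrices, and polynomial matrix functions of weight zero.
-/

namespace Vale.Agent.P199.K.Assembly

open MvPolynomial Matrix

variable {p r : ℕ} [hp : Fact p.Prime]

/-- The character `x ↦ ζ ^ x` of `ℤ/p`. -/
noncomputable def ep (p : ℕ) (x : ZMod p) : ℂ := zeta p ^ x.val

theorem zeta_prim : IsPrimitiveRoot (zeta p) p := Complex.isPrimitiveRoot_exp p hp.out.ne_zero

theorem ep_add (x y : ZMod p) : ep p (x + y) = ep p x * ep p y := by
  simp only [ep, ← pow_add, ZMod.val_add]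
  exact (pow_eq_pow_mod _ (zeta_prim (p := p)).pow_eq_one).symm

theorem ep_zero : ep p (0 : ZMod p) = 1 := by simp [ep]

theorem ep_ne_zero (x : ZMod p) : ep p x ≠ 0 := pow_ne_zero _ (zeta_prim.ne_zero hp.out.ne_zero)

theorem ep_eq_one {x : ZMod p} (h : ep p x = 1) : x = 0 :=
  (ZMod.val_eq_zero x).1 (Nat.eq_zero_of_dvd_of_lt
    ((zeta_prim (p := p)).pow_eq_one_iff_dvd _ |>.1 h) x.val_lt)

theorem W_apply (a : Gp p r) (i j : Ix p r) :
    W p r a i j = if i = j + (fun k => a (Sum.inl k)) then
      ep p (∑ k, a (Sum.inr k) * j k) else 0 := rfl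

/-- The cocycle. -/
noncomputable def cocy (a b : Gp p r) : ℂ := ep p (∑ k, a (Sum.inr k) * b (Sum.inl k))

theorem cocy_ne_zero (a b : Gp p r) : cocy a b ≠ 0 := ep_ne_zero _

theorem W_mul (a b : Gp p r) : W p r a * W p r b = cocy a b • W p r (a + b) := by
  ext i l
  rw [Matrix.mul_apply, Finset.sum_eq_single (l + fun k => b (Sum.inl k))]
  · rw [Matrix.smul_apply, W_apply, W_apply, W_apply, if_pos rfl, smul_eq_mul]
    have e : ((l + fun k => b (Sum.inl k)) + fun k => a (Sum.inl k)) =
        l + fun k => (a + b) (Sum.inl k) := by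
      funext k; simp only [Pi.add_apply]; ring
    rw [e]
    split_ifs
    · rw [cocy, ← ep_add, ← ep_add, ← Finset.sum_add_distrib, ← Finset.sum_add_distrib]
      refine congrArg _ (Finset.sum_congr rfl fun k _ => ?_)
      simp only [Pi.add_apply]
      ring
    · simp
  · intro j _ hj
    rw [W_apply b, if_neg hj, mul_zero]
  · simp

theorem W_zero : W p r (0 : Gp p r) = 1 := by
  ext i j
  rw [W_apply, Matrix.one_apply]
  simp [ep_zero, ← Pi.zero_def]

/-- The commutation character. -/
noncomputable def chi (g a : Gp p r) : ℂ :=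
  ep p (∑ k, (g (Sum.inr k) * a (Sum.inl k) - a (Sum.inr k) * g (Sum.inl k)))

theorem chi_cocy (g a : Gp p r) : cocy g a = chi g a * cocy a g := by
  rw [cocy, chi, cocy, ← ep_add, ← Finset.sum_add_distrib]
  exact congrArg _ (Finset.sum_congr rfl fun k _ => by ring)

theorem W_comm (g a : Gp p r) : W p r g * W p r a = chi g a • (W p r a * W p r g) := by
  rw [W_mul, W_mul, smul_smul, ← chi_cocy, add_comm]

theorem chi_add (g a b : Gp p r) : chi g (a + b) = chi g a * chi g b := by
  rw [chi, chi, chi, ← ep_add, ← Finset.sum_add_distrib]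
  exact congrArg _ (Finset.sum_congr rfl fun k _ => by simp only [Pi.add_apply]; ring)

/-- The characters separate the group. -/
theorem chi_sep {a : Gp p r} (h : ∀ g, chi g a = 1) : a = 0 := by
  classical
  funext x
  rcases x with k | k
  · have := ep_eq_one (h (Pi.single (Sum.inr k) 1))
    simpa [Pi.single_apply] using this
  · have := ep_eq_one (h (Pi.single (Sum.inl k) 1))
    simpa [Pi.single_apply] using this

/-- The inverse of a Weyl matrix. -/
theorem W_mul_neg (g : Gp p r) :
    W p r g * ((cocy g (-g))⁻¹ • W p r (-g)) = 1 := by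
  rw [Matrix.mul_smul, W_mul, smul_smul, inv_mul_cancel₀ (cocy_ne_zero _ _), one_smul,
    add_neg_cancel, W_zero]

section Alg

variable (R : Type) [CommRing R] [Algebra ℂ R]

theorem WA_mul (a b : Gp p r) :
    WA p r R a * WA p r R b = algebraMap ℂ R (cocy a b) • WA p r R (a + b) := by
  rw [WA, WA, WA, ← Matrix.map_mul, W_mul]
  ext i j
  simp

theorem WA_zero : WA p r R (0 : Gp p r) = 1 := by
  rw [WA, W_zero, Matrix.map_one _ (map_zero _) (map_one _)]

theorem WA_comm (g a : Gp p r) :
    WA p r R g * WA p r R a = algebraMap ℂ R (chi g a) • (WA p r R a * WA p r R g) := by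
  rw [WA, WA, ← Matrix.map_mul, W_comm, ← Matrix.map_mul]
  ext i j
  simp only [Matrix.map_apply, Matrix.smul_apply, smul_eq_mul, map_mul]

/-- A Weyl matrix as a unit. -/
noncomputable def WU (g : Gp p r) : (Matrix (Ix p r) (Ix p r) R)ˣ :=
  Units.map ((algebraMap ℂ R).mapMatrix : Matrix (Ix p r) (Ix p r) ℂ →+* _).toMonoidHom
    ⟨W p r g, (cocy g (-g))⁻¹ • W p r (-g), W_mul_neg g, mul_eq_one_comm.1 (W_mul_neg g)⟩

theorem WU_val (g : Gp p r) : (WU R g : Matrix (Ix p r) (Ix p r) R) = WA p r R g := rfl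

omit hp in
theorem map_WA {S : Type} [CommRing S] [Algebra ℂ S] (φ : R →ₐ[ℂ] S) (a : Gp p r) :
    (WA p r R a).map φ = WA p r S a := by
  ext i j
  simp [WA]

end Alg

/-- The scaling of the coordinates by a character. -/
noncomputable def scal (g : Gp p r) : MvPolynomial (XY p r) ℂ →ₐ[ℂ] MvPolynomial (XY p r) ℂ :=
  aeval fun v => C (chi g (xyWt p r v)) * X v

theorem coeff_scal (g : Gp p r) (f : MvPolynomial (XY p r) ℂ) (d : XY p r →₀ ℕ) :
    coeff d (scal g f) = chi g (Finsupp.weight (xyWt p r) d) * coeff d f := by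
  classical
  have key : ∀ (e : XY p r →₀ ℕ) (c : ℂ),
      scal g (monomial e c) = monomial e (chi g (Finsupp.weight (xyWt p r) e) * c) := by
    intro e c
    have h : chi g (Finsupp.weight (xyWt p r) e) =
        e.prod fun v n => chi g (xyWt p r v) ^ n := by
      induction e using Finsupp.induction with
      | zero => simp [chi, ep_zero]
      | single_add v n e hv hn ih =>
        rw [map_add, chi_add, ih, Finsupp.prod_add_index' (by simp) (fun _ _ _ => pow_add _ _ _),
          Finsupp.prod_single_index (by simp), Finsupp.weight_apply,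
          Finsupp.sum_single_index (by simp)]
        congr 1
        clear hn
        induction n with
        | zero => simp [chi, ep_zero]
        | succ n ihn => rw [add_smul, one_smul, chi_add, ihn, pow_succ]
    rw [scal, aeval_monomial, h, monomial_eq (a := _ * c), MvPolynomial.algebraMap_eq]
    simp only [mul_pow, Finsupp.prod_mul, map_mul, map_finsuppProd, map_pow]
    ring
  induction f using MvPolynomial.induction_on' with
  | monomial e c =>
    rw [key, coeff_monomial, coeff_monomial]
    split_ifs with h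
    · rw [h]
    · simp
  | add f₁ f₂ h₁ h₂ => rw [map_add, coeff_add, coeff_add, h₁, h₂, mul_add]

theorem isWeightedHomogeneous_zero_of_scal {f : MvPolynomial (XY p r) ℂ}
    (h : ∀ g, scal g f = f) : IsWeightedHomogeneous (xyWt p r) f 0 := by
  intro d hd
  refine chi_sep fun g => ?_
  have := coeff_scal g f d
  rw [h g] at this
  exact (mul_eq_right₀ hd).1 this.symm

theorem scal_of_isWeightedHomogeneous {f : MvPolynomial (XY p r) ℂ} {a : Gp p r}
    (h : IsWeightedHomogeneous (xyWt p r) f a) (g : Gp p r) :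
    scal g f = C (chi g a) * f := by
  ext d
  rw [coeff_scal, coeff_C_mul]
  by_cases hd : coeff d f = 0
  · simp [hd]
  · rw [h hd]

variable {f f' : Matrix (Ix p r) (Ix p r) (MvPolynomial (XY p r) ℂ)}

theorem isEquiv_scalar {c : MvPolynomial (XY p r) ℂ} (hc : IsWeightedHomogeneous (xyWt p r) c 0) :
    IsEquiv p r (algebraMap (MvPolynomial (XY p r) ℂ) _ c) := by
  classical
  refine ⟨Pi.single 0 c, fun a => ?_, ?_⟩
  · by_cases h : a = 0
    · subst h; simpa using hc
    · rw [Pi.single_eq_of_ne h]; exact isWeightedHomogeneous_zero _ _ _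
  · rw [Fintype.sum_eq_single (0 : Gp p r) fun a ha => by simp [Pi.single_eq_of_ne ha],
      Pi.single_eq_same, WA_zero, Algebra.algebraMap_eq_smul_one]

theorem isEquiv_zero : IsEquiv p r (0 : Matrix (Ix p r) (Ix p r) (MvPolynomial (XY p r) ℂ)) := by
  simpa using isEquiv_scalar (isWeightedHomogeneous_zero ℂ (xyWt p r) (0 : Gp p r))

theorem isEquiv_one : IsEquiv p r (1 : Matrix (Ix p r) (Ix p r) (MvPolynomial (XY p r) ℂ)) := by
  simpa using isEquiv_scalar (isWeightedHomogeneous_one ℂ (xyWt p r))

theorem isEquiv_add (h : IsEquiv p r f) (h' : IsEquiv p r f') : IsEquiv p r (f + f') := by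
  obtain ⟨c, hc, rfl⟩ := h
  obtain ⟨c', hc', rfl⟩ := h'
  exact ⟨c + c', fun a => (hc a).add (hc' a), by simp [add_smul, Finset.sum_add_distrib]⟩

theorem isEquiv_mul (h : IsEquiv p r f) (h' : IsEquiv p r f') : IsEquiv p r (f * f') := by
  obtain ⟨c, hc, rfl⟩ := h
  obtain ⟨c', hc', rfl⟩ := h'
  refine ⟨fun s => ∑ a, C (cocy a (s - a)) * (c a * c' (s - a)), fun s => ?_, ?_⟩
  · refine IsWeightedHomogeneous.sum _ _ _ fun a _ => ?_
    have := ((isWeightedHomogeneous_C (xyWt p r) (cocy a (s - a))).mul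
      ((hc a).mul (hc' (s - a))))
    simpa using this
  · rw [Finset.sum_mul]
    simp_rw [Finset.sum_smul]
    rw [Finset.sum_comm]
    refine Finset.sum_congr rfl fun a _ => ?_
    rw [Finset.mul_sum]
    refine Fintype.sum_equiv (Equiv.addLeft a) _ _ fun b => ?_
    simp only [Equiv.coe_addLeft, add_sub_cancel_left]
    rw [smul_mul_smul_comm, WA_mul, smul_smul, MvPolynomial.algebraMap_eq]
    congr 1
    ring

theorem isEquiv_gen (b : Bool) : IsEquiv p r (cond b (genX p r) (genY p r)) := by
  cases b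
  · exact ⟨fun a => X (Sum.inr a), fun a => isWeightedHomogeneous_X _ _ _, rfl⟩
  · exact ⟨fun a => X (Sum.inl a), fun a => isWeightedHomogeneous_X _ _ _, rfl⟩

theorem map_scal_sum (g : Gp p r) (c : Gp p r → MvPolynomial (XY p r) ℂ)
    (hc : ∀ a, IsWeightedHomogeneous (xyWt p r) (c a) a) :
    (∑ a, c a • WA p r (MvPolynomial (XY p r) ℂ) a).map (scal g) =
      ∑ a, (C (chi g a) * c a) • WA p r (MvPolynomial (XY p r) ℂ) a := by
  ext1 i j
  rw [Matrix.map_apply, Matrix.sum_apply, Matrix.sum_apply, map_sum]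
  refine Finset.sum_congr rfl fun a _ => ?_
  rw [Matrix.smul_apply, Matrix.smul_apply, smul_eq_mul, smul_eq_mul, map_mul,
    scal_of_isWeightedHomogeneous (hc a)]
  exact congrArg _ ((scal g).commutes (W p r a i j))

theorem sum_mul_WA (g : Gp p r) (c : Gp p r → MvPolynomial (XY p r) ℂ) :
    (∑ a, (C (chi g a) * c a) • WA p r (MvPolynomial (XY p r) ℂ) a) *
        WA p r (MvPolynomial (XY p r) ℂ) g =
      WA p r (MvPolynomial (XY p r) ℂ) g * ∑ a, c a • WA p r (MvPolynomial (XY p r) ℂ) a := by
  rw [Finset.mul_sum, Finset.sum_mul]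
  refine Finset.sum_congr rfl fun a _ => ?_
  rw [Matrix.smul_mul, Matrix.mul_smul, WA_comm _ g a, smul_smul, MvPolynomial.algebraMap_eq,
    mul_comm (c a)]

omit hp in
/-- A ring map which conjugates a matrix fixes its characteristic polynomial. -/
theorem charpoly_fixed {A n : Type} [CommRing A] [Fintype n] [DecidableEq n] (φ : A →+* A)
    (U : (Matrix n n A)ˣ) (f₀ : Matrix n n A) (key : f₀.map φ * U.val = U.val * f₀) (j : ℕ) :
    φ (f₀.charpoly.coeff j) = f₀.charpoly.coeff j := by
  have hm : f₀.map φ = U.val * f₀ * U⁻¹.val := by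
    rw [← key, mul_assoc, Units.mul_inv, mul_one]
  rw [Matrix.coe_units_inv] at hm
  have h2 := (Matrix.charpoly_map f₀ φ).symm.trans
    ((congrArg Matrix.charpoly hm).trans (Matrix.charpoly_units_conj U f₀))
  have h3 := congrArg (fun q => Polynomial.coeff q j) h2
  simpa [Polynomial.coeff_map] using h3

/-- The characteristic polynomial of a weight zero matrix function has weight zero. -/
theorem charpoly_coeff_weight (h : IsEquiv p r f) (j : ℕ) :
    IsWeightedHomogeneous (xyWt p r) (f.charpoly.coeff j) 0 := by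
  obtain ⟨c, hc, rfl⟩ := h
  refine isWeightedHomogeneous_zero_of_scal fun g => ?_
  refine charpoly_fixed (scal g).toRingHom (WU (MvPolynomial (XY p r) ℂ) g) _ ?_ j
  refine Eq.trans (congrArg (· * _) (map_scal_sum g c hc)) ?_
  exact sum_mul_WA g c

end Vale.Agent.P199.K.Assembly
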